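import Vale.Agent.P235.K5.W.H246.Hub
import Vale.Agent.P235.K5.W.H531.Dich

set_option autoImplicit false

/-!
# P235, K5, [WAG]: the trichotomy FAT / TRI / HUB in the letters of `W/H531/Dich.lean`
-/

namespace Vale.Agent.P235.K5.W.H246

open Vale.Agent.P235.K5.W

variable {V : Type} {G : SimpleGraph V}

/-- **[W-HUB'], touch form.** A connected set `X` which touches `B 0`, `B 1`, `B 2` splits into two
connected sets each of which touches two of them (fat), or into three pairwise adjacent connected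
sets which touch exactly one each (triangle), or has a hub. -/
theorem trichotomy [Finite V] {X : Set V} (hX : H531.Con G X) (B : Fin 3 → Set V)
    (hB : ∀ i, H531.Tch G X (B i)) :
    (∃ P Q : Set V, P ∪ Q = X ∧ Disjoint P Q ∧ H531.Con G P ∧ H531.Con G Q ∧
      (∃ i j, i ≠ j ∧ H531.Tch G P (B i) ∧ H531.Tch G P (B j)) ∧
      (∃ i j, i ≠ j ∧ H531.Tch G Q (B i) ∧ H531.Tch G Q (B j))) ∨
    (∃ Y : Fin 3 → Set V, (⋃ i, Y i) = X ∧ (∀ i j, i ≠ j → Disjoint (Y i) (Y j)) ∧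
      (∀ i, H531.Con G (Y i)) ∧ (∀ i j, i ≠ j → H531.Tch G (Y i) (Y j)) ∧
      ∀ i j, H531.Tch G (Y j) (B i) ↔ i = j) ∨
    ∃ h ∈ X, ∀ C ⊆ X, h ∉ C → H531.Con G C →
      ∀ i j, H531.Tch G C (B i) → H531.Tch G C (B j) → i = j := by
  by_cases hf : ∀ P Q : Set V, P ∪ Q = X → Disjoint P Q → (G.induce P).Connected →
      (G.induce Q).Connected → Light (fun i v => ∃ b ∈ B i, G.Adj v b) P ∨
        Light (fun i v => ∃ b ∈ B i, G.Adj v b) Q
  · rcases hub G X hX (fun i v => ∃ b ∈ B i, G.Adj v b) hB hf with ⟨h, hh, hl⟩ | ⟨Y, hY⟩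
    · exact Or.inr (Or.inr ⟨h, hh, hl⟩)
    · exact Or.inr (Or.inl ⟨Y, hY.union, hY.disj, hY.conn, hY.adj, hY.tch⟩)
  · left
    push Not at hf
    obtain ⟨P, Q, h1, h2, h3, h4, h5, h6⟩ := hf
    refine ⟨P, Q, h1, h2, h3, h4, ?_, ?_⟩
    · unfold Light at h5
      push Not at h5
      obtain ⟨i, j, hi, hj, hij⟩ := h5
      exact ⟨i, j, hij, hi, hj⟩
    · unfold Light at h6
      push Not at h6
      obtain ⟨i, j, hi, hj, hij⟩ := h6
      exact ⟨i, j, hij, hi, hj⟩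

end Vale.Agent.P235.K5.W.H246
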