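import Mathlib.Combinatorics.SimpleGraph.Connectivity.Connected
import Mathlib.Data.Fintype.Fin
import Mathlib.Tactic

set_option autoImplicit false

/-!
# P235, K5, [WAG]: the hub lemma (corrected)

`X` is a finite connected set of vertices, three things touch it. If every splitting of `X` into
two connected sets has a side which touches at most one thing, then there is a hub (every
connected subset which avoids it touches at most one thing), or `X` is the union of three disjoint,
connected, pairwise adjacent sets, the `i`-th of which touches the thing `i` only.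
-/

namespace Vale.Agent.P235.K5.W.H246

variable {V : Type*} {G : SimpleGraph V}

lemma fin3_other : ∀ i j : Fin 3, ∃ k : Fin 3, k ≠ i ∧ k ≠ j := by decide

lemma fin3_all : ∀ i j k : Fin 3, j ≠ i → k ≠ i → k ≠ j → ∀ l : Fin 3, l = i ∨ l = j ∨ l = k := by
  decide

/-- Connected sets, by closed subsets. -/
def CC (G : SimpleGraph V) (P : Set V) : Prop :=
  P.Nonempty ∧ ∀ A ⊆ P, A.Nonempty → (∀ u ∈ A, ∀ v ∈ P, G.Adj u v → v ∈ A) → P ⊆ A

theorem cc_iff (P : Set V) : (G.induce P).Connected ↔ CC G P := by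
  constructor
  · intro h
    refine ⟨Set.nonempty_coe_sort.1 h.nonempty, ?_⟩
    rintro A hA ⟨a, ha⟩ hcl p hp
    obtain ⟨w⟩ := h.preconnected ⟨a, hA ha⟩ ⟨p, hp⟩
    have key : ∀ (x y : P), (G.induce P).Walk x y → x.1 ∈ A → y.1 ∈ A := by
      intro x y w
      induction w with
      | nil => exact id
      | cons hadj _ ih =>
        intro hx
        exact ih (hcl _ hx _ (Subtype.coe_prop _) hadj)
    exact key _ _ w ha
  · rintro ⟨hne, hA⟩
    haveI := hne.to_subtype
    refine SimpleGraph.Connected.mk ?_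
    intro x y
    have h1 := hA {v | ∃ hv : v ∈ P, (G.induce P).Reachable x ⟨v, hv⟩}
      (fun v hv => hv.1) ⟨x.1, x.2, SimpleGraph.Reachable.refl _⟩ (by
        rintro u ⟨hu, hr⟩ v hv huv
        refine ⟨hv, hr.trans ?_⟩
        exact SimpleGraph.Adj.reachable (by exact huv))
    obtain ⟨_, hr⟩ := h1 y.2
    exact hr

lemma cc_single (p : V) : CC G {p} := by
  refine ⟨⟨p, rfl⟩, ?_⟩
  rintro A hA ⟨a, ha⟩ _ q hq
  have h1 : a = p := hA ha
  have h2 : q = p := hq
  rw [h2, ← h1]
  exact ha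

/-- Two adjacent connected sets have a connected union. -/
lemma CC.union {P Q : Set V} (hP : CC G P) (hQ : CC G Q) {u v : V} (hu : u ∈ P) (hv : v ∈ Q)
    (huv : G.Adj u v ∨ u = v) : CC G (P ∪ Q) := by
  refine ⟨hP.1.mono Set.subset_union_left, ?_⟩
  intro A hA hne hcl
  have closedP : ∀ x ∈ A ∩ P, ∀ y ∈ P, G.Adj x y → y ∈ A ∩ P := fun x hx y hy hxy =>
    ⟨hcl x hx.1 y (Or.inl hy) hxy, hy⟩
  have closedQ : ∀ x ∈ A ∩ Q, ∀ y ∈ Q, G.Adj x y → y ∈ A ∩ Q := fun x hx y hy hxy =>
    ⟨hcl x hx.1 y (Or.inr hy) hxy, hy⟩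
  have fP : (A ∩ P).Nonempty → P ⊆ A := fun h =>
    (hP.2 _ Set.inter_subset_right h closedP).trans Set.inter_subset_left
  have fQ : (A ∩ Q).Nonempty → Q ⊆ A := fun h =>
    (hQ.2 _ Set.inter_subset_right h closedQ).trans Set.inter_subset_left
  obtain ⟨a, ha⟩ := hne
  have hPQ : P ⊆ A → Q ⊆ A := by
    intro h
    apply fQ
    rcases huv with huv | huv
    · exact ⟨v, hcl u (h hu) v (Or.inr hv) huv, hv⟩
    · exact ⟨v, huv ▸ h hu, hv⟩
  have hQP : Q ⊆ A → P ⊆ A := by
    intro h
    apply fP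
    rcases huv with huv | huv
    · exact ⟨u, hcl v (h hv) u (Or.inl hu) huv.symm, hu⟩
    · exact ⟨u, huv ▸ h hv, hu⟩
  rcases hA ha with h | h
  · have h1 := fP ⟨a, ha, h⟩
    exact Set.union_subset h1 (hPQ h1)
  · have h1 := fQ ⟨a, ha, h⟩
    exact Set.union_subset (hQP h1) h1

/-- A connected set which meets a closed part of a set lies in this part. -/
lemma CC.subset {C K Y : Set V} (hC : CC G C) (hCY : C ⊆ Y)
    (hcl : ∀ u ∈ K, ∀ v ∈ Y, G.Adj u v → v ∈ K) (hm : (C ∩ K).Nonempty) : C ⊆ K :=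
  (hC.2 _ Set.inter_subset_left hm (fun u hu v hv huv =>
    ⟨hv, hcl u hu.2 v (hCY hv) huv⟩)).trans Set.inter_subset_right

/-- Components. -/
lemma exists_comp [Finite V] {Y : Set V} {p : V} (hp : p ∈ Y) :
    ∃ K ⊆ Y, p ∈ K ∧ CC G K ∧ ∀ u ∈ K, ∀ v ∈ Y, G.Adj u v → v ∈ K := by
  obtain ⟨K, hK⟩ := (Set.toFinite {K : Set V | p ∈ K ∧ K ⊆ Y ∧ CC G K}).exists_maximal
    ⟨{p}, rfl, Set.singleton_subset_iff.2 hp, cc_single p⟩
  refine ⟨K, hK.prop.2.1, hK.prop.1, hK.prop.2.2, ?_⟩
  intro u hu v hv huv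
  have h1 : CC G (K ∪ {v}) := hK.prop.2.2.union (cc_single v) hu rfl (Or.inl huv)
  have h2 := hK.le_of_ge (y := K ∪ {v}) ⟨Or.inl hK.prop.1,
    Set.union_subset hK.prop.2.1 (Set.singleton_subset_iff.2 hv), h1⟩ Set.subset_union_left
  exact h2 (Or.inr rfl)

/-- The complement of a union of components of `X - h` is connected. -/
lemma CC.diff {X C : Set V} (hX : CC G X) {h : V} (hh : h ∈ X) (hhC : h ∉ C)
    (hcl : ∀ u ∈ C, ∀ v ∈ X, v ≠ h → G.Adj u v → v ∈ C) : CC G (X \ C) := by
  refine ⟨⟨h, hh, hhC⟩, ?_⟩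
  intro A hA hne hAcl
  by_contra hcon
  obtain ⟨b, hbX, hbA⟩ := Set.not_subset.1 hcon
  have main : ∀ D ⊆ X \ C, D.Nonempty → h ∉ D →
      (∀ u ∈ D, ∀ v ∈ X \ C, G.Adj u v → v ∈ D) → False := by
    intro D hD hDne hhD hDcl
    have h1 := hX.2 D (fun x hx => (hD hx).1) hDne (by
      intro u hu v hv huv
      apply hDcl u hu v ⟨hv, ?_⟩ huv
      intro hvC
      exact (hD hu).2 (hcl v hvC u (hD hu).1 (fun e => hhD (e ▸ hu)) huv.symm))
    exact hhD (h1 hh)
  by_cases hhA : h ∈ A
  · apply main ((X \ C) \ A) Set.sdiff_subset ⟨b, hbX, hbA⟩ (fun h1 => h1.2 hhA)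
    intro u hu v hv huv
    exact ⟨hv, fun hvA => hu.2 (hAcl v hvA u hu.1 huv.symm)⟩
  · exact main A hA hne hhA hAcl

/-- `P` touches the thing `i`. -/
def Tch (t : Fin 3 → V → Prop) (i : Fin 3) (P : Set V) : Prop := ∃ p ∈ P, t i p

/-- `P` touches at most one thing. -/
def Light (t : Fin 3 → V → Prop) (P : Set V) : Prop := ∀ i j, Tch t i P → Tch t j P → i = j

lemma Tch.mono {t : Fin 3 → V → Prop} {i : Fin 3} {P Q : Set V} (h : P ⊆ Q) (hP : Tch t i P) :
    Tch t i Q := by
  obtain ⟨p, hp, ht⟩ := hP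
  exact ⟨p, h hp, ht⟩

lemma Light.mono {t : Fin 3 → V → Prop} {P Q : Set V} (h : P ⊆ Q) (hQ : Light t Q) :
    Light t P := fun i j hi hj => hQ i j (hi.mono h) (hj.mono h)

/-- There is an edge between `P` and `Q`. -/
def Nb (G : SimpleGraph V) (P Q : Set V) : Prop := ∃ u ∈ P, ∃ v ∈ Q, G.Adj u v

lemma Nb.symm {P Q : Set V} (h : Nb G P Q) : Nb G Q P := by
  obtain ⟨u, hu, v, hv, huv⟩ := h
  exact ⟨v, hv, u, hu, huv.symm⟩

/-- In a connected set there is an edge between a part and the rest. -/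
lemma CC.nb {X P : Set V} (hX : CC G X) (hP : P ⊆ X) (hne : P.Nonempty) (hne' : (X \ P).Nonempty) :
    Nb G P (X \ P) := by
  by_contra hcon
  obtain ⟨x, hx, hxP⟩ := hne'
  apply hxP
  apply hX.2 P hP hne _ hx
  intro u hu v hv huv
  by_contra hvP
  exact hcon ⟨u, hu, v, ⟨hv, hvP⟩, huv⟩

/-- Three disjoint, connected, pairwise adjacent sets with union `X`, the `i`-th of which touches
the thing `i` only. -/
structure Tri (G : SimpleGraph V) (t : Fin 3 → V → Prop) (X : Set V) (Y : Fin 3 → Set V) :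
    Prop where
  union : ⋃ i, Y i = X
  disj : ∀ i j, i ≠ j → Disjoint (Y i) (Y j)
  conn : ∀ i, (G.induce (Y i)).Connected
  adj : ∀ i j, i ≠ j → Nb G (Y i) (Y j)
  tch : ∀ i j, Tch t i (Y j) ↔ i = j

/-- **The hub lemma.** -/
theorem hub [Finite V] (G : SimpleGraph V) (X : Set V) (hX : (G.induce X).Connected)
    (t : Fin 3 → V → Prop) (ht : ∀ i, Tch t i X)
    (hs : ∀ P Q : Set V, P ∪ Q = X → Disjoint P Q → (G.induce P).Connected →
      (G.induce Q).Connected → Light t P ∨ Light t Q) :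
    (∃ h ∈ X, ∀ C ⊆ X, h ∉ C → (G.induce C).Connected → Light t C) ∨ ∃ Y, Tri G t X Y := by
  classical
  simp only [cc_iff] at hX hs ⊢
  by_cases hheavy : ∃ P Q : Set V, P ∪ Q = X ∧ Disjoint P Q ∧ CC G P ∧ CC G Q ∧ ¬ Light t P
  · -- a minimal heavy side
    obtain ⟨P, hP⟩ := (Set.toFinite {P : Set V | ∃ Q : Set V, P ∪ Q = X ∧ Disjoint P Q ∧ CC G P ∧
      CC G Q ∧ ¬ Light t P}).exists_minimal hheavy
    obtain ⟨Q, hPQ, hd, hPc, hQc, hPh⟩ := hP.prop
    have hmin : ∀ P' ⊆ P, P' ≠ P → ∀ Q' : Set V, P' ∪ Q' = X → Disjoint P' Q' → CC G P' →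
        CC G Q' → Light t P' := by
      intro P' hP' hne Q' h1 h2 h3 h4
      by_contra hh
      exact hne (hP'.antisymm (hP.le_of_le ⟨Q', h1, h2, h3, h4, hh⟩ hP'))
    have hQl : Light t Q := (hs P Q hPQ hd hPc hQc).resolve_left hPh
    have hPX : P ⊆ X := hPQ ▸ Set.subset_union_left
    have hQX : Q ⊆ X := hPQ ▸ Set.subset_union_right
    have hXP : X \ P = Q := by
      rw [← hPQ, Set.union_sdiff_left]
      exact hd.symm.sdiff_eq_left
    obtain ⟨h, hhP, q, hq, hhq⟩ := hX.nb hPX hPc.1 (hXP ▸ hQc.1)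
    rw [hXP] at hq
    have hhQ : h ∉ Q := fun hc => Set.disjoint_left.1 hd hhP hc
    by_cases hhub : ∀ C ⊆ X, h ∉ C → CC G C → Light t C
    · exact Or.inl ⟨h, hPX hhP, hhub⟩
    · right
      push Not at hhub
      obtain ⟨C, hCX, hhC, hCc, hCh⟩ := hhub
      -- facts about components of `P - h`
      have hcomp : ∀ K ⊆ P \ {h}, CC G K → (∀ u ∈ K, ∀ v ∈ P \ {h}, G.Adj u v → v ∈ K) →
          CC G (P \ K) ∧ Light t K := by
        intro K hK hKc hKcl
        have hhK : h ∉ K := fun hc => (hK hc).2 rfl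
        have h1 : CC G (P \ K) := hPc.diff hhP hhK (fun u hu v hv hvh huv =>
          hKcl u hu v ⟨hv, hvh⟩ huv)
        refine ⟨h1, ?_⟩
        apply hmin K (fun x hx => (hK hx).1) (fun e => hhK (e ▸ hhP)) (P \ K ∪ Q)
        · rw [← Set.union_assoc, Set.union_sdiff_cancel (fun x hx => (hK hx).1), hPQ]
        · rw [Set.disjoint_union_right]
          exact ⟨Set.disjoint_sdiff_right, hd.mono_left (fun x hx => (hK hx).1)⟩
        · exact hKc
        · exact h1.union hQc ⟨hhP, hhK⟩ hq (Or.inl hhq)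
      -- a point of `C` in `P` which touches something
      have hCP : ∃ i, ∃ p ∈ C ∩ P, t i p := by
        by_contra hcon
        push Not at hcon
        apply hCh
        intro i j hi hj
        obtain ⟨x, hx, hxi⟩ := hi
        obtain ⟨y, hy, hyj⟩ := hj
        have hxQ : x ∈ Q := by
          rw [← hXP]
          exact ⟨hCX hx, fun hc => hcon i x ⟨hx, hc⟩ hxi⟩
        have hyQ : y ∈ Q := by
          rw [← hXP]
          exact ⟨hCX hy, fun hc => hcon j y ⟨hy, hc⟩ hyj⟩
        exact hQl i j ⟨x, hxQ, hxi⟩ ⟨y, hyQ, hyj⟩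
      obtain ⟨i, p, ⟨hpC, hpP⟩, hpi⟩ := hCP
      have hph : p ∈ P \ {h} := ⟨hpP, fun e => hhC (e ▸ hpC)⟩
      obtain ⟨K, hKP, hpK, hKc, hKcl⟩ := exists_comp (G := G) hph
      obtain ⟨hPKc, hKl⟩ := hcomp K hKP hKc hKcl
      have hKP' : K ⊆ P := fun x hx => (hKP hx).1
      have hhK : h ∉ K := fun hc => (hKP hc).2 rfl
      -- `C` leaves `K`, and it leaves it into `Q`
      have hKQ : Nb G K Q := by
        have h1 : ¬ C ⊆ K := fun hc => hCh (hKl.mono hc)
        obtain ⟨x, hxC, hxK⟩ := Set.not_subset.1 h1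
        obtain ⟨u, hu, v, hv, huv⟩ := hCc.nb (P := C ∩ K) Set.inter_subset_left ⟨p, hpC, hpK⟩
          ⟨x, hxC, fun hc => hxK hc.2⟩
        refine ⟨u, hu.2, v, ?_, huv⟩
        rw [← hXP]
        refine ⟨hCX hv.1, fun hvP => hv.2 ⟨hv.1, ?_⟩⟩
        exact hKcl u hu.2 v ⟨hvP, fun e => hhC (e ▸ hv.1)⟩ huv
      have hPKl : Light t (P \ K) := by
        apply hmin (P \ K) Set.sdiff_subset _ (K ∪ Q)
        · rw [← Set.union_assoc, Set.sdiff_union_of_subset hKP', hPQ]
        · rw [Set.disjoint_union_right]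
          exact ⟨Set.disjoint_sdiff_left, hd.mono_left Set.sdiff_subset⟩
        · exact hPKc
        · obtain ⟨u, hu, v, hv, huv⟩ := hKQ
          exact hKc.union hQc hu hv (Or.inl huv)
        · intro e
          have : p ∈ P \ K := e.symm ▸ hpP
          exact this.2 hpK
      have hKi : Tch t i K := ⟨p, hpK, hpi⟩
      -- `P - K` touches another thing
      have hj : ∃ j, j ≠ i ∧ Tch t j (P \ K) := by
        by_contra hcon
        push Not at hcon
        apply hPh
        have h1 : ∀ j, Tch t j P → j = i := by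
          intro j hj
          obtain ⟨x, hx, hxj⟩ := hj
          by_cases hxK : x ∈ K
          · exact hKl j i ⟨x, hxK, hxj⟩ hKi
          · by_contra hji
            exact hcon j hji ⟨x, ⟨hx, hxK⟩, hxj⟩
        intro j j' h2 h3
        rw [h1 j h2, h1 j' h3]
      obtain ⟨j, hji, hj⟩ := hj
      obtain ⟨k, hki, hkj⟩ : ∃ k : Fin 3, k ≠ i ∧ k ≠ j := fin3_other i j
      have hk : Tch t k Q := by
        obtain ⟨x, hx, hxk⟩ := ht k
        by_cases hxP : x ∈ P
        · exfalso
          by_cases hxK : x ∈ K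
          · exact hki (hKl k i ⟨x, hxK, hxk⟩ hKi)
          · exact hkj (hPKl k j ⟨x, ⟨hxP, hxK⟩, hxk⟩ hj)
        · exact ⟨x, by rw [← hXP]; exact ⟨hx, hxP⟩, hxk⟩
      have hall : ∀ l : Fin 3, l = i ∨ l = j ∨ l = k := fin3_all i j k hji hki hkj
      refine ⟨fun l => if l = i then K else if l = j then P \ K else Q, ?_⟩
      have ei : (fun l => if l = i then K else if l = j then P \ K else Q) i = K := by
        simp
      have ej : (fun l => if l = i then K else if l = j then P \ K else Q) j = P \ K := by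
        simp [hji]
      have ek : (fun l => if l = i then K else if l = j then P \ K else Q) k = Q := by
        simp [hki, hkj]
      set Y : Fin 3 → Set V := fun l => if l = i then K else if l = j then P \ K else Q with hY
      have hKPK : Nb G K (P \ K) := hPc.nb hKP' ⟨p, hpK⟩ hPKc.1
      have hPKQ : Nb G (P \ K) Q := ⟨h, ⟨hhP, hhK⟩, q, hq, hhq⟩
      refine ⟨?_, ?_, ?_, ?_, ?_⟩
      · apply Set.Subset.antisymm
        · apply Set.iUnion_subset
          intro l
          rcases hall l with rfl | rfl | rfl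
          · rw [ei]; exact hKP'.trans hPX
          · rw [ej]; exact Set.sdiff_subset.trans hPX
          · rw [ek]; exact hQX
        · intro x hx
          rw [Set.mem_iUnion]
          by_cases hxP : x ∈ P
          · by_cases hxK : x ∈ K
            · exact ⟨i, by rw [ei]; exact hxK⟩
            · exact ⟨j, by rw [ej]; exact ⟨hxP, hxK⟩⟩
          · exact ⟨k, by rw [ek, ← hXP]; exact ⟨hx, hxP⟩⟩
      · have d1 : Disjoint K (P \ K) := Set.disjoint_sdiff_right
        have d2 : Disjoint K Q := hd.mono_left hKP'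
        have d3 : Disjoint (P \ K) Q := hd.mono_left Set.sdiff_subset
        intro l l' hl
        rcases hall l with rfl | rfl | rfl <;> rcases hall l' with rfl | rfl | rfl <;>
          simp only [ei, ej, ek] <;>
          first
            | exact absurd rfl hl
            | exact d1
            | exact d2
            | exact d3
            | exact d1.symm
            | exact d2.symm
            | exact d3.symm
      · intro l
        rw [cc_iff]
        rcases hall l with rfl | rfl | rfl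
        · rw [ei]; exact hKc
        · rw [ej]; exact hPKc
        · rw [ek]; exact hQc
      · intro l l' hl
        rcases hall l with rfl | rfl | rfl <;> rcases hall l' with rfl | rfl | rfl <;>
          simp only [ei, ej, ek] <;>
          first
            | exact absurd rfl hl
            | exact hKPK
            | exact hKQ
            | exact hPKQ
            | exact hKPK.symm
            | exact hKQ.symm
            | exact hPKQ.symm
      · have tK : ∀ l, Tch t l K ↔ l = i := fun l =>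
          ⟨fun h1 => hKl l i h1 hKi, fun h1 => h1 ▸ hKi⟩
        have tP : ∀ l, Tch t l (P \ K) ↔ l = j := fun l =>
          ⟨fun h1 => hPKl l j h1 hj, fun h1 => h1 ▸ hj⟩
        have tQ : ∀ l, Tch t l Q ↔ l = k := fun l =>
          ⟨fun h1 => hQl l k h1 hk, fun h1 => h1 ▸ hk⟩
        intro l l'
        rcases hall l' with rfl | rfl | rfl
        · rw [ei]; exact tK l
        · rw [ej]; exact tP l
        · rw [ek]; exact tQ l
  · -- no heavy side
    left
    obtain ⟨h, hh⟩ := hX.1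
    refine ⟨h, hh, ?_⟩
    intro C hCX hhC hCc
    obtain ⟨p, hp⟩ := hCc.1
    have hph : p ∈ X \ {h} := ⟨hCX hp, fun e => hhC (e ▸ hp)⟩
    obtain ⟨K, hKX, hpK, hKc, hKcl⟩ := exists_comp (G := G) hph
    have hhK : h ∉ K := fun hc => (hKX hc).2 rfl
    have hCK : C ⊆ K := hCc.subset (Y := X \ {h}) (fun x hx => ⟨hCX hx, fun e => hhC (e ▸ hx)⟩)
      hKcl ⟨p, hp, hpK⟩
    have hKX' : K ⊆ X := fun x hx => (hKX hx).1
    by_contra hl
    apply hheavy
    refine ⟨K, X \ K, Set.union_sdiff_cancel hKX', Set.disjoint_sdiff_right, hKc, ?_, ?_⟩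
    · exact hX.diff hh hhK (fun u hu v hv hvh huv => hKcl u hu v ⟨hv, hvh⟩ huv)
    · exact fun hc => hl (hc.mono hCK)

end Vale.Agent.P235.K5.W.H246
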