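import Vale.Agent.P235.K5.W.Defs
import Vale.Agent.P235.K5.W.H246.Hub

set_option autoImplicit false

/-!
# P235, K5, [WAG]: row [W-HUB'], the literal `TrichStmt` of `W/Defs.lean`
-/

namespace Vale.Agent.P235.K5.W.H246

/-- **[W-HUB']**: FAT, TRI or HUB. -/
theorem trich : TrichStmt := by
  intro V _ G X L hX hL
  by_cases hf : ∀ P Q : Set V, P ∪ Q = X → Disjoint P Q → (G.induce P).Connected →
      (G.induce Q).Connected → Light (fun i v => L v i) P ∨ Light (fun i v => L v i) Q
  · rcases hub G X hX (fun i v => L v i) hL hf with ⟨h, hh, hl⟩ | ⟨Y, hY⟩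
    · right
      right
      refine ⟨h, hh, fun K hK hhK hKc => ?_⟩
      rintro ⟨i, j, hij, hi, hj⟩
      exact hij (hl K hK hhK hKc i j hi hj)
    · right
      left
      have hex : ∀ v, ∃ i : Fin 3, v ∈ X → v ∈ Y i := by
        intro v
        by_cases hv : v ∈ X
        · have h1 : v ∈ ⋃ i, Y i := by rw [hY.union]; exact hv
          rw [Set.mem_iUnion] at h1
          obtain ⟨i, hi⟩ := h1
          exact ⟨i, fun _ => hi⟩
        · exact ⟨0, fun h => absurd h hv⟩
      choose g hg using hex
      have hsub : ∀ i, Y i ⊆ X := fun i => by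
        rw [← hY.union]
        exact Set.subset_iUnion Y i
      have hgY : ∀ i, ∀ v ∈ Y i, g v = i := by
        intro i v hv
        by_contra hne
        exact Set.disjoint_left.1 (hY.disj _ _ hne) (hg v (hsub i hv)) hv
      have hset : ∀ j, {v | v ∈ X ∧ g v = j} = Y j := by
        intro j
        ext v
        constructor
        · rintro ⟨hv, rfl⟩
          exact hg v hv
        · intro hv
          exact ⟨hsub j hv, hgY j v hv⟩
      refine ⟨g, ?_, ?_, ?_⟩
      · intro j
        rw [hset j]
        exact hY.conn j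
      · intro i j hij
        obtain ⟨u, hu, v, hv, huv⟩ := hY.adj i j hij
        exact ⟨u, hsub i hu, v, hsub j hv, hgY i u hu, hgY j v hv, huv⟩
      · intro x hx j hxj
        exact ((hY.tch j (g x)).1 ⟨x, hg x hx, hxj⟩).symm
  · left
    push Not at hf
    obtain ⟨P, Q, h1, h2, h3, h4, h5, h6⟩ := hf
    have hPX : P ⊆ X := h1 ▸ Set.subset_union_left
    have hQ : X \ P = Q := by
      rw [← h1, Set.union_sdiff_left]
      exact h2.symm.sdiff_eq_left
    refine ⟨P, hPX, h3, by rw [hQ]; exact h4, ?_, ?_⟩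
    · unfold Light at h5
      push Not at h5
      obtain ⟨i, j, hi, hj, hij⟩ := h5
      exact ⟨i, j, hij, hi, hj⟩
    · rw [hQ]
      unfold Light at h6
      push Not at h6
      obtain ⟨i, j, hi, hj, hij⟩ := h6
      exact ⟨i, j, hij, hi, hj⟩

end Vale.Agent.P235.K5.W.H246
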